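import Vale.Agent.P251CM.Gen
import Vale.Agent.P251CB.Repl

/-!
# P251C: every `StabInput` category has a stable homotopy category
-/

open CategoryTheory MonoidalCategory Limits

namespace Vale.Agent.P251CM

open Vale.Agent.P251 Vale.Agent.P251.H

/-- **The generic comparison theorem, unconditional.** -/
theorem nonempty_genSH (M : Type 1) [Category.{0} M] [MonoidalCategory M] [SymmetricCategory M]
    [MonoidalClosed M] [HasZeroMorphisms M] [HasColimitsOfSize.{0, 0} M] [StabInput M] :
    ∃ (T : St.SHCat) (S : St.Susp T), Nonempty (GenSH M T S) := by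
  obtain ⟨Q, q, hQ, hq⟩ := P251CB.exists_flat_repl M
  exact exists_genSH Q q hQ hq

end Vale.Agent.P251CM
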