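import Vale.Agent.P251.H.Assemble
import Vale.Agent.P251.H.UnitTT
import Vale.Agent.P251.H.SpaceFun
import Vale.Agent.P251.St.OfFunctor

/-!
# P251C: the stable homotopy category of a `StabInput` category, with its data

For `M : Type 1` with `StabInput M` and a localization `L₀` of the flat objects with values in a
category with small Hom sets:

* `shOf L₀ : St.SHCat`, with `(shOf L₀).C = TT (piModel (GG M)) L₀`;
* `LF L₀ : FlatCat (WW M) ⥤ (shOf L₀).C`, a braided localization functor;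
* `suspOf L₀ : St.Susp (shOf L₀)` and its description by `LF L₀` (`eS`).
-/

open CategoryTheory MonoidalCategory Limits Pretriangulated
open Functor.LaxMonoidal Functor.OplaxMonoidal

namespace Vale.Agent.P251CM

open Vale.Agent.P251 Vale.Agent.P251.G Vale.Agent.P251.G.LC Vale.Agent.P251.H
  Vale.Agent.P251.H.StabInput Vale.Agent.P251.T

variable (M : Type 1) [Category.{0} M] [MonoidalCategory M] [SymmetricCategory M]
    [MonoidalClosed M] [HasZeroMorphisms M] [HasColimitsOfSize.{0, 0} M] [StabInput M]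

/-- the test objects: `L^n ⊗ K`, `K` a finite cell space -/
abbrev GG : ObjectProperty M := cells I.FCP

/-- the stable equivalences -/
abbrev WW : MorphismProperty M := piW (GG M)

theorem unit_GG : GG M (𝟙_ M) := cells_unit (AA := I.FCP)
  (FC.of_homeo (FC.sph 0) (Homeomorph.homeomorphOfUnique (Fin 0 → ℝ) Unit))

theorem J_GG (X : LC) (h : LC.FC X) : GG M ((J M).obj X) := cells_J (AA := I.FCP) h

/-- there is a localization of the flat objects with small Hom sets -/
theorem exists_loc : ∃ (D : Type 1) (_ : Category.{0} D) (L : FlatCat (WW M) ⥤ D),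
    L.IsLocalization (CofCat.W (C := FlatCat (WW M))) :=
  exists_small_loc (piModel (GG M)) (isCpt_TT (GG M) _ (unit_GG M))
    (isGen_TT I.FCP _ (fun _ h => h) (spaceFunctor (GG M) _ (J_GG M)) (fun _ => ⟨Iso.refl _⟩))
    (small_TT (GG M) _ (unit_GG M))

variable {M}

section

variable {D₀ : Type 1} [Category.{0} D₀] (L₀ : FlatCat (WW M) ⥤ D₀)
  [L₀.IsLocalization (CofCat.W (C := FlatCat (WW M)))]

/-- the tensor triangulated category -/
abbrev TM : Type 1 := TT (piModel (GG M)) L₀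

theorem isCpt_TM : IsCpt (𝟙_ (TM L₀)) := isCpt_TT (GG M) L₀ (unit_GG M)

theorem isGen_TM : IsGen (𝟙_ (TM L₀)) :=
  isGen_TT I.FCP L₀ (fun _ h => h) (spaceFunctor (GG M) L₀ (J_GG M)) (fun _ => ⟨Iso.refl _⟩)

theorem hasProducts_TM : HasProducts.{0} (TM L₀) :=
  haveI := locallySmall_self.{0} (TM L₀)
  hasProducts_of_cpt (isCpt_TM L₀) (isGen_TM L₀)

theorem nonempty_closed_TM : Nonempty (MonoidalClosed (TM L₀)) :=
  haveI := locallySmall_self.{0} (TM L₀)
  nonempty_monoidalClosed (isCpt_TM L₀) (isGen_TM L₀)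
    (fun A _ X => preservesColimit_tensorLeft_TT (GG M) L₀ A X)

/-- The stable homotopy category of `M`. -/
noncomputable def shOf : St.SHCat :=
  letI := hasProducts_TM L₀
  letI := (nonempty_closed_TM L₀).some
  letI : StableCat (TM L₀) := stableCat_of (isCpt_TM L₀) (isGen_TM L₀)
  { C := TM L₀ }

/-- the localization functor on flat objects -/
noncomputable def LF : FlatCat (WW M) ⥤ (shOf L₀).C := TT.L (piModel (GG M)) L₀

noncomputable instance : (LF L₀).Braided :=
  inferInstanceAs (TT.L (piModel (GG M)) L₀).Braided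

instance : (LF L₀).IsLocalization (CofCat.W (C := FlatCat (WW M))) :=
  inferInstanceAs ((TT.L (piModel (GG M)) L₀).IsLocalization (CofCat.W (C := FlatCat (WW M))))

theorem isIso_LF_map {X Y : FlatCat (WW M)} (f : X ⟶ Y) (hf : WW M f.hom) :
    IsIso ((LF L₀).map f) :=
  Localization.inverts (LF L₀) (CofCat.W (C := FlatCat (WW M))) f hf

/-- the suspension spectrum functor on finite cell spaces -/
noncomputable def sfOf : I.SpaceFunctor (shOf L₀).C := spaceFunctor (GG M) L₀ (J_GG M)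

/-- The suspension spectrum functor. -/
noncomputable def suspOf : St.Susp (shOf L₀) := St.ofSpaceFunctor (sfOf L₀)

/-- the flat object of a finite cell space -/
abbrev flJ {X : St.Space} (h : St.FC X) : FlatCat (WW M) := (JF (WW M)).obj (St.OfFunctor.ob h)

theorem flJ_obj {X : St.Space} (h : St.FC X) : (flJ (M := M) h).obj = (J M).obj (St.toLC X) := rfl

/-- the map of flat objects induced by a map of finite cell spaces -/
abbrev flMap {X Y : St.Space} (hX : St.FC X) (hY : St.FC Y) (f : St.Map X Y) :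
    flJ (M := M) hX ⟶ flJ hY := ObjectProperty.homMk ((J M).map (St.toHom f))

/-- the multiplication of the flat objects of finite cell spaces -/
abbrev flMul {X Y : St.Space} (hX : St.FC X) (hY : St.FC Y) :
    flJ (M := M) hX ⊗ flJ hY ⟶ flJ (St.fc_prod hX hY) :=
  ObjectProperty.homMk (μ (J M) (St.toLC X) (St.toLC Y))

/-- the unit of the flat objects of finite cell spaces -/
abbrev flUnit : 𝟙_ (FlatCat (WW M)) ⟶ flJ (M := M) St.fcPn := ObjectProperty.homMk (ε (J M))

/-- the suspension spectrum of a finite cell space is the image of `J X` -/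
noncomputable def eS {X : St.Space} (h : St.FC X) :
    (suspOf L₀).obj X ≅ (LF L₀).obj (flJ h) := St.OfFunctor.oi (sfOf L₀) h

theorem map_eS {X Y : St.Space} (hX : St.FC X) (hY : St.FC Y) (f : St.Map X Y) :
    (suspOf L₀).map f ≫ (eS L₀ hY).hom = (eS L₀ hX).hom ≫ (LF L₀).map (flMap hX hY f) := by
  have h := St.OfFunctor.map_eq (sfOf L₀) hX hY f
  change St.OfFunctor.map (sfOf L₀) f ≫ (St.OfFunctor.oi (sfOf L₀) hY).hom =
    (St.OfFunctor.oi (sfOf L₀) hX).hom ≫ (sfOf L₀).S.map (St.OfFunctor.hm hX hY f)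
  rw [h, Category.assoc, Category.assoc, Iso.inv_hom_id, Category.comp_id]

theorem JF_μ_eq {X Y : St.Space} (hX : St.FC X) (hY : St.FC Y) :
    μ (JF (WW M)) (St.OfFunctor.ob hX) (St.OfFunctor.ob hY) = flMul hX hY :=
  ObjectProperty.hom_ext _ (JF_μ_hom (WW M) _ _)

theorem mul_eS {X Y : St.Space} (hX : St.FC X) (hY : St.FC Y) :
    (suspOf L₀).mul X Y ≫ (eS L₀ (St.fc_prod hX hY)).hom =
      ((eS L₀ hX).hom ⊗ₘ (eS L₀ hY).hom) ≫ μ (LF L₀) (flJ hX) (flJ hY) ≫
        (LF L₀).map (flMul hX hY) := by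
  have h := St.OfFunctor.mul_eq (sfOf L₀) hX hY
  rw [← JF_μ_eq]
  change St.OfFunctor.mul (sfOf L₀) X Y ≫ (St.OfFunctor.oi (sfOf L₀) (St.fc_prod hX hY)).hom =
    ((St.OfFunctor.oi (sfOf L₀) hX).hom ⊗ₘ (St.OfFunctor.oi (sfOf L₀) hY).hom) ≫
      (Functor.Monoidal.μIso (sfOf L₀).S (St.OfFunctor.ob hX) (St.OfFunctor.ob hY)).hom
  rw [h, Category.assoc, Category.assoc, Iso.inv_hom_id, Category.comp_id]

theorem JF_ε_eq : ε (JF (WW M)) = (flUnit : 𝟙_ (FlatCat (WW M)) ⟶ flJ St.fcPn) := by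
  apply ObjectProperty.hom_ext
  change ε (J M) ≫ (J M).map (𝟙 _) = ε (J M)
  exact (congrArg (ε (J M) ≫ ·) ((J M).map_id _)).trans (Category.comp_id _)

theorem unit_eS : (suspOf L₀).unit ≫ (eS L₀ St.fcPn).hom = ε (LF L₀) ≫ (LF L₀).map flUnit := by
  rw [← JF_ε_eq]
  change ((Functor.Monoidal.εIso (sfOf L₀).S).hom ≫ (St.OfFunctor.oi (sfOf L₀) St.fcPn).inv) ≫
    (St.OfFunctor.oi (sfOf L₀) St.fcPn).hom = (Functor.Monoidal.εIso (sfOf L₀).S).hom
  rw [Category.assoc, Iso.inv_hom_id, Category.comp_id]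

/-- the circle goes to the shift of the unit -/
noncomputable def lineF : (LF L₀).obj (flJ St.fcRr) ≅ (𝟙_ (shOf L₀).C)⟦(1 : ℤ)⟧ :=
  lineSF (GG M) L₀

theorem line_eS : (suspOf L₀).line = (eS L₀ St.fcRr).hom ≫ (lineF L₀).hom := rfl

end

end Vale.Agent.P251CM
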