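import Vale.Agent.P251CM.Model

/-!
# P251C: the generic form of the comparison statement

`GenSH M T S`: `T` is the localization of `M` at the stable equivalences, through a lax symmetric
monoidal functor which is compatible with suspension spectra and mapping cones.
-/

open CategoryTheory MonoidalCategory Limits Pretriangulated
open Functor.LaxMonoidal Functor.OplaxMonoidal

namespace Vale.Agent.P251CM

open Vale.Agent.P251 Vale.Agent.P251.G Vale.Agent.P251.G.LC Vale.Agent.P251.H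
  Vale.Agent.P251.H.StabInput Vale.Agent.P251.St.SHCat

/-- `T` is the stable homotopy category of `M` and `S` the suspension spectrum functor. -/
structure GenSH (M : Type 1) [Category.{0} M] [MonoidalCategory M] [SymmetricCategory M]
    [MonoidalClosed M] [HasZeroMorphisms M] [HasColimitsOfSize.{0, 0} M] [StabInput M]
    (T : St.SHCat) (S : St.Susp T) where
  /-- the localization functor -/
  L : M ⥤ T.C
  loc : L.IsLocalization (WW M)
  /-- the lax symmetric monoidal structure -/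
  mu : ∀ X Y : M, L.obj X ⊗ L.obj Y ⟶ L.obj (X ⊗ Y)
  /-- the comparison of suspension spectra -/
  io : ∀ K : St.Space, S.obj K ⟶ L.obj ((J M).obj (St.toLC K))
  ex_flat : ∀ X : M, ∃ (Y : M) (f : Y ⟶ X), Flat (WW M) Y ∧ WW M f
  mu_iso : ∀ X Y : M, Flat (WW M) Y → IsIso (mu X Y)
  mu_nat : ∀ {X Y X' Y' : M} (f : X ⟶ X') (g : Y ⟶ Y'),
    mu X Y ≫ L.map (f ⊗ₘ g) = (L.map f ⊗ₘ L.map g) ≫ mu X' Y'
  mu_assoc : ∀ X Y Z : M, mu X Y ▷ L.obj Z ≫ mu (X ⊗ Y) Z ≫ L.map (α_ X Y Z).hom =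
    (α_ _ _ _).hom ≫ L.obj X ◁ mu Y Z ≫ mu X (Y ⊗ Z)
  mu_comm : ∀ X Y : M, mu X Y ≫ L.map (β_ X Y).hom = (β_ _ _).hom ≫ mu Y X
  mu_unit : ∀ X : M, L.obj X ◁ (S.unit ≫ io St.Pn) ≫ mu X ((J M).obj (St.toLC St.Pn)) =
    (ρ_ _).hom ≫ L.map ((ρ_ X).inv ≫ X ◁ ε (J M))
  io_iso : ∀ {K : St.Space}, St.FC K → IsIso (io K)
  flat_J : ∀ {K : St.Space}, St.FC K → Flat (WW M) ((J M).obj (St.toLC K))
  io_nat : ∀ {K K' : St.Space} (a : St.Map K K'), St.FC K → St.FC K' →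
    S.map a ≫ io K' = io K ≫ L.map ((J M).map (St.toHom a))
  io_mul : ∀ {K K' : St.Space}, St.FC K → St.FC K' →
    S.mul K K' ≫ io (K.prod K') = (io K ⊗ₘ io K') ≫ mu _ _ ≫
      L.map (μ (J M) (St.toLC K) (St.toLC K'))
  cone : ∀ {X Y C : M} (f : X ⟶ Y) (k : X ⊗ CI M ⟶ C) (i : Y ⟶ C) (d : C ⟶ X ⊗ StabInput.S M)
    (δ : L.obj C ⟶ L.obj X ⊗ S.obj St.Rr), IsCone f k i d →
    δ ≫ L.obj X ◁ io St.Rr ≫ mu X (StabInput.S M) = L.map d →
    St.SHCat.Dist (L.map f) (L.map i) (δ ≫ L.obj X ◁ S.line ≫ tenSus (L.obj X))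

end Vale.Agent.P251CM
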