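import Vale.Agent.P251CM.Model

/-!
# P251C: mapping cones of flat objects give distinguished triangles
-/

open CategoryTheory MonoidalCategory Limits Pretriangulated
open Functor.LaxMonoidal Functor.OplaxMonoidal

namespace Vale.Agent.P251CM

open Vale.Agent.P251 Vale.Agent.P251.G Vale.Agent.P251.G.LC Vale.Agent.P251.H
  Vale.Agent.P251.H.StabInput Vale.Agent.P251.T

variable {M : Type 1} [Category.{0} M] [MonoidalCategory M] [SymmetricCategory M]
    [MonoidalClosed M] [HasZeroMorphisms M] [HasColimitsOfSize.{0, 0} M] [StabInput M]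

theorem collHH_eq : collHH = openPart := rfl

/-- the cone on a flat object is flat -/
theorem flat_cone (W : MorphismProperty M) [GoodW W] {X : M} (hX : Flat W X) :
    Flat W (X ⊗ CI M) := (flatInput W).flat_tensor hX (flat_CI W)

/-- the mapping cone of a map of flat objects is flat -/
theorem flat_of_isCone (W : MorphismProperty M) [GoodW W] {X Y C : M} {f : X ⟶ Y}
    {k : X ⊗ CI M ⟶ C} {i : Y ⟶ C} (h : IsPushout (coneBase X) f k i) (hX : Flat W X)
    (hY : Flat W Y) : Flat W C :=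
  (flatInput W).flat_pushout h (hCof_coneBase X) hX (flat_cone W hX) hY

variable {D₀ : Type 1} [Category.{0} D₀] (L₀ : FlatCat (WW M) ⥤ D₀)
  [L₀.IsLocalization (CofCat.W (C := FlatCat (WW M)))]

/-- The mapping cone sequence of a map of flat objects is a distinguished triangle. -/
theorem dist_LF {X Y C : FlatCat (WW M)} (f : X ⟶ Y) (i : Y ⟶ C) (d : C ⟶ X ⊗ flJ St.fcRr)
    {k : X.obj ⊗ CI M ⟶ C.obj} (h : IsCone f.hom k i.hom d.hom) :
    Triangle.mk ((LF L₀).map f) ((LF L₀).map i)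
      ((LF L₀).map d ≫ δ (LF L₀) X (flJ St.fcRr) ≫ (LF L₀).obj X ◁ (lineF L₀).hom ≫
        (TensorTriangulated.e ((LF L₀).obj X)).hom) ∈ distTriang (shOf L₀).C := by
  let m := flatCone (WW M)
  let k' : X ⊗ m.CI ⟶ C := ObjectProperty.homMk k
  let d' : C ⟶ X ⊗ m.S := d
  have h0 : IsPushout f (m.coneIn X) i k' := isPushout_flat_of_hom h.po.flip
  have e1 : i ≫ d' = 0 := ObjectProperty.hom_ext _ h.iq
  have e2 : k' ≫ d' = X ◁ m.s := ObjectProperty.hom_ext _ h.kq
  have e3 : m.coneIn X ≫ (m.coneIso X).hom = 𝟙 _ ≫ CofCat.cin X :=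
    (m.coneIn_coneIso _).trans (Category.id_comp _).symm
  have hP := h0.of_iso (Iso.refl _) (Iso.refl _) (m.coneIso X) (Iso.refl _) (by simp) e3
    (f' := f) (inl' := i) (inr' := (m.coneIso X).inv ≫ k') (by simp) (by simp)
  have h1 := dist_cone (TT.τ (piModel (GG M)) L₀) f hP (d := d' ≫ (m.suspIso X).hom)
    (by rw [reassoc_of% e1, zero_comp])
    (by rw [Category.assoc, reassoc_of% e2, ConeModel.s_suspIso, Iso.inv_hom_id_assoc])
  have e4 : (TT.L (piModel (GG M)) L₀).map d' ≫ δ (TT.L (piModel (GG M)) L₀) X m.S ≫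
      (TT.L (piModel (GG M)) L₀).obj X ◁ (lineSF (GG M) L₀).hom ≫
        (TensorTriangulated.e ((TT.L (piModel (GG M)) L₀).obj X)).hom =
      (TT.L (piModel (GG M)) L₀).map (d' ≫ (m.suspIso X).hom) ≫
        (TT.τ (piModel (GG M)) L₀).hom.app X := by
    refine (congrArg (fun g => (TT.L (piModel (GG M)) L₀).map d' ≫
      δ (TT.L (piModel (GG M)) L₀) X m.S ≫ g) (lineSF_e (GG M) L₀ _)).trans ?_
    have h2 := third_aux (TT.L (piModel (GG M)) L₀) m d' (𝟙 _)
      (K := (TT.inv (piModel (GG M)) L₀).pow 1)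
      (λ_ ((TT.L (piModel (GG M)) L₀).obj (piModel (GG M)).m.S)).symm
    rw [CategoryTheory.Functor.map_id, Category.id_comp, Category.id_comp] at h2
    exact h2
  exact e4 ▸ h1

end Vale.Agent.P251CM
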