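import Mathlib.CategoryTheory.Monoidal.Subcategory
import Mathlib.CategoryTheory.Monoidal.Braided.Basic

/-!
# P251C: the lax monoidal structure on a derived functor

For a monoidal functor `G` on a full monoidal subcategory `P` of `M` and a replacement functor
`Q : M ⥤ P` with a natural map `q : Q X ⟶ X` inverted by `G` and by `Q ⋙ G`, the functor
`L = Q ⋙ G` is lax symmetric monoidal.
-/

open CategoryTheory MonoidalCategory
open Functor.LaxMonoidal Functor.OplaxMonoidal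

namespace Vale.Agent.P251CM

variable {M : Type*} [Category* M] {T : Type*} [Category* T]

/-- a replacement functor -/
structure Rp (P : ObjectProperty M) (G : P.FullSubcategory ⥤ T) where
  /-- the functor -/
  Q : M ⥤ P.FullSubcategory
  /-- the natural map -/
  q : ∀ X, (Q.obj X).obj ⟶ X
  nat : ∀ {X Y : M} (f : X ⟶ Y), (Q.map f).hom ≫ q Y = q X ≫ f
  iso₁ : ∀ A : P.FullSubcategory,
    IsIso (G.map (ObjectProperty.homMk (q A.obj) : Q.obj A.obj ⟶ A))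
  iso₂ : ∀ X, IsIso (G.map (Q.map (q X)))

namespace Rp

variable {P : ObjectProperty M} {G : P.FullSubcategory ⥤ T} (R : Rp P G)

/-- the derived functor -/
abbrev L : M ⥤ T := R.Q ⋙ G

/-- the natural map in the subcategory -/
abbrev qF (A : P.FullSubcategory) : R.Q.obj A.obj ⟶ A := ObjectProperty.homMk (R.q A.obj)

instance (A : P.FullSubcategory) : IsIso (G.map (R.qF A)) := R.iso₁ A

theorem qF_nat {A B : P.FullSubcategory} (a : A ⟶ B) :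
    R.Q.map a.hom ≫ R.qF B = R.qF A ≫ a := ObjectProperty.hom_ext _ (R.nat a.hom)

/-- the map `G A ⟶ L Z` induced by a map `A ⟶ Z` of `M` -/
noncomputable def toL (A : P.FullSubcategory) {Z : M} (g : A.obj ⟶ Z) :
    G.obj A ⟶ G.obj (R.Q.obj Z) :=
  inv (G.map (R.qF A)) ≫ G.map (R.Q.map g)

@[reassoc]
theorem qF_toL (A : P.FullSubcategory) {Z : M} (g : A.obj ⟶ Z) :
    G.map (R.qF A) ≫ R.toL A g = G.map (R.Q.map g) := by
  rw [toL, IsIso.hom_inv_id_assoc]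

@[reassoc]
theorem toL_map (A : P.FullSubcategory) {Z Z' : M} (g : A.obj ⟶ Z) (h : Z ⟶ Z') :
    R.toL A g ≫ G.map (R.Q.map h) = R.toL A (g ≫ h) := by
  rw [toL, toL, Category.assoc, ← G.map_comp, ← R.Q.map_comp]

@[reassoc]
theorem map_toL {A B : P.FullSubcategory} (a : A ⟶ B) {Z : M} (g : B.obj ⟶ Z) :
    G.map a ≫ R.toL B g = R.toL A (a.hom ≫ g) := by
  rw [← cancel_epi (G.map (R.qF A)), qF_toL, ← G.map_comp_assoc, ← qF_nat, G.map_comp_assoc,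
    qF_toL, ← G.map_comp, ← R.Q.map_comp]

theorem isIso_toL (A : P.FullSubcategory) {Z : M} (g : A.obj ⟶ Z)
    (h : IsIso (G.map (R.Q.map g))) : IsIso (R.toL A g) := by
  unfold toL
  infer_instance

theorem toL_q (X : M) : R.toL (R.Q.obj X) (R.q X) = 𝟙 _ := by
  have h1 := R.iso₂ X
  have h2 : IsIso (R.toL (R.Q.obj X) (R.q X)) := R.isIso_toL _ _ h1
  have h3 : G.map (R.qF (R.Q.obj X)) ≫ R.toL (R.Q.obj X) (R.q X) =
      G.map (R.Q.map (R.q X)) ≫ R.toL (R.Q.obj X) (R.q X) := by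
    rw [map_toL, map_toL, R.nat]
    rfl
  have h4 := (cancel_mono _).mp h3
  rw [← cancel_epi (G.map (R.qF (R.Q.obj X))), qF_toL, Category.comp_id, h4]

theorem map_eq_toL {X Y : M} (f : X ⟶ Y) :
    G.map (R.Q.map f) = R.toL (R.Q.obj X) (R.q X ≫ f) := by
  rw [← toL_map, toL_q, Category.id_comp]

variable [MonoidalCategory M] [P.IsMonoidal] [MonoidalCategory T] [G.Monoidal]

/-- the lax monoidal structure map -/
noncomputable def mu (X Y : M) :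
    G.obj (R.Q.obj X) ⊗ G.obj (R.Q.obj Y) ⟶ G.obj (R.Q.obj (X ⊗ Y)) :=
  μ G (R.Q.obj X) (R.Q.obj Y) ≫ R.toL (R.Q.obj X ⊗ R.Q.obj Y) (R.q X ⊗ₘ R.q Y)

@[reassoc]
theorem toL_mu (A B : P.FullSubcategory) {X Y : M} (g : A.obj ⟶ X) (h : B.obj ⟶ Y) :
    (R.toL A g ⊗ₘ R.toL B h) ≫ R.mu X Y = μ G A B ≫ R.toL (A ⊗ B) (g ⊗ₘ h) := by
  rw [← cancel_epi (G.map (R.qF A) ⊗ₘ G.map (R.qF B)), tensorHom_comp_tensorHom_assoc, qF_toL,
    qF_toL, mu, μ_natural_assoc, μ_natural_assoc, map_toL, map_toL]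
  refine congrArg (fun k => μ G (R.Q.obj A.obj) (R.Q.obj B.obj) ≫
    R.toL (R.Q.obj A.obj ⊗ R.Q.obj B.obj) k) ?_
  change ((R.Q.map g).hom ⊗ₘ (R.Q.map h).hom) ≫ (R.q X ⊗ₘ R.q Y) =
    (R.q A.obj ⊗ₘ R.q B.obj) ≫ (g ⊗ₘ h)
  rw [tensorHom_comp_tensorHom, tensorHom_comp_tensorHom, R.nat, R.nat]

@[reassoc]
theorem whiskerLeft_toL_mu (X : M) (B : P.FullSubcategory) {Y : M} (h : B.obj ⟶ Y) :
    G.obj (R.Q.obj X) ◁ R.toL B h ≫ R.mu X Y =
      μ G (R.Q.obj X) B ≫ R.toL (R.Q.obj X ⊗ B) (R.q X ⊗ₘ h) := by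
  rw [← toL_mu, toL_q, id_tensorHom]

@[reassoc]
theorem whiskerRight_toL_mu (A : P.FullSubcategory) {X : M} (g : A.obj ⟶ X) (Y : M) :
    R.toL A g ▷ G.obj (R.Q.obj Y) ≫ R.mu X Y =
      μ G A (R.Q.obj Y) ≫ R.toL (A ⊗ R.Q.obj Y) (g ⊗ₘ R.q Y) := by
  rw [← toL_mu, toL_q, tensorHom_id]

theorem mu_nat {X Y X' Y' : M} (f : X ⟶ X') (g : Y ⟶ Y') :
    R.mu X Y ≫ G.map (R.Q.map (f ⊗ₘ g)) =
      (G.map (R.Q.map f) ⊗ₘ G.map (R.Q.map g)) ≫ R.mu X' Y' := by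
  rw [map_eq_toL R f, map_eq_toL R g, toL_mu, mu, Category.assoc, toL_map,
    tensorHom_comp_tensorHom]

theorem mu_assoc (X Y Z : M) :
    R.mu X Y ▷ G.obj (R.Q.obj Z) ≫ R.mu (X ⊗ Y) Z ≫ G.map (R.Q.map (α_ X Y Z).hom) =
      (α_ _ _ _).hom ≫ G.obj (R.Q.obj X) ◁ R.mu Y Z ≫ R.mu X (Y ⊗ Z) := by
  rw [mu, mu.eq_1 R Y Z, comp_whiskerRight, MonoidalCategory.whiskerLeft_comp, Category.assoc,
    Category.assoc, whiskerRight_toL_mu_assoc, whiskerLeft_toL_mu, toL_map,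
    ← Functor.LaxMonoidal.associativity_assoc, map_toL]
  refine congrArg (fun k => μ G (R.Q.obj X) (R.Q.obj Y) ▷ G.obj (R.Q.obj Z) ≫
    μ G (R.Q.obj X ⊗ R.Q.obj Y) (R.Q.obj Z) ≫
      R.toL ((R.Q.obj X ⊗ R.Q.obj Y) ⊗ R.Q.obj Z) k) ?_
  exact associator_naturality (R.q X) (R.q Y) (R.q Z)

/-- the unit, for a map `e : 𝟙 ⟶ Y` -/
theorem mu_unit (X : M) {Y : M} (e : 𝟙_ M ⟶ Y) :
    G.obj (R.Q.obj X) ◁ (ε G ≫ R.toL (𝟙_ P.FullSubcategory) e) ≫ R.mu X Y =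
      (ρ_ _).hom ≫ G.map (R.Q.map ((ρ_ X).inv ≫ X ◁ e)) := by
  rw [MonoidalCategory.whiskerLeft_comp, Category.assoc, whiskerLeft_toL_mu, map_eq_toL,
    ← cancel_epi (ρ_ (G.obj (R.Q.obj X))).inv, Iso.inv_hom_id_assoc, right_unitality_inv_assoc,
    map_toL]
  refine congrArg (R.toL (R.Q.obj X)) ?_
  change (ρ_ (R.Q.obj X).obj).inv ≫ (R.q X ⊗ₘ e) = R.q X ≫ (ρ_ X).inv ≫ X ◁ e
  rw [tensorHom_def, rightUnitor_inv_naturality_assoc]

theorem isIso_mu (X Y : M) (h : IsIso (G.map (R.Q.map (R.q X ⊗ₘ R.q Y)))) : IsIso (R.mu X Y) := by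
  have := R.isIso_toL (R.Q.obj X ⊗ R.Q.obj Y) (R.q X ⊗ₘ R.q Y) h
  unfold mu
  infer_instance

end Rp

namespace Rp

variable [MonoidalCategory M] [BraidedCategory M] {P : ObjectProperty M} [P.IsMonoidal]
  [MonoidalCategory T] [BraidedCategory T] {G : P.FullSubcategory ⥤ T} [G.Braided] (R : Rp P G)

theorem mu_comm (X Y : M) :
    R.mu X Y ≫ G.map (R.Q.map (β_ X Y).hom) = (β_ _ _).hom ≫ R.mu Y X := by
  rw [mu, mu, Category.assoc, toL_map, ← Functor.LaxBraided.braided_assoc, map_toL]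
  refine congrArg (fun k => μ G (R.Q.obj X) (R.Q.obj Y) ≫
    R.toL (R.Q.obj X ⊗ R.Q.obj Y) k) ?_
  exact BraidedCategory.braiding_naturality (R.q X) (R.q Y)

end Rp

end Vale.Agent.P251CM
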