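import Vale.Agent.P251CM.GenDef
import Vale.Agent.P251CM.Cone
import Vale.Agent.P251CM.Lax
import Vale.Agent.P251CL.FlatLoc

/-!
# P251C: the generic comparison theorem

`exists_genSH`: a flat replacement functor on `M` gives `GenSH M T S`.
-/

open CategoryTheory MonoidalCategory Limits Pretriangulated
open Functor.LaxMonoidal Functor.OplaxMonoidal

namespace Vale.Agent.P251CM

open Vale.Agent.P251 Vale.Agent.P251.G Vale.Agent.P251.G.LC Vale.Agent.P251.H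
  Vale.Agent.P251.H.StabInput Vale.Agent.P251.T Vale.Agent.P251CL

variable {M : Type 1} [Category.{0} M] [MonoidalCategory M] [SymmetricCategory M]
    [MonoidalClosed M] [HasZeroMorphisms M] [HasColimitsOfSize.{0, 0} M] [StabInput M]

section

variable (Q : M ⥤ M) (q : Q ⟶ 𝟭 M) (hQ : ∀ X, Flat (WW M) (Q.obj X))
  (hq : ∀ X, WW M (q.app X)) {D₀ : Type 1} [Category.{0} D₀] (L₀ : FlatCat (WW M) ⥤ D₀)
  [L₀.IsLocalization (CofCat.W (C := FlatCat (WW M)))]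

/-- the replacement data -/
noncomputable def rp : Rp (Flat (WW M)) (LF L₀) where
  Q := liftQ (WW M) Q hQ
  q X := q.app X
  nat f := q.naturality f
  iso₁ A := isIso_LF_map L₀ _ (hq A.obj)
  iso₂ X := isIso_LF_map L₀ _ ((W_Q_map_iff (WW M) Q q hq _).mpr (hq X))

theorem isIso_rp_map {X Y : M} (f : X ⟶ Y) (hf : WW M f) :
    IsIso ((LF L₀).map ((rp Q q hQ hq L₀).Q.map f)) :=
  isIso_LF_map L₀ _ ((W_Q_map_iff (WW M) Q q hq _).mpr hf)

theorem W_q (X : M) : WW M ((rp Q q hQ hq L₀).q X) := hq X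

end

section

variable {D₀ : Type 1} [Category.{0} D₀] {L₀ : FlatCat (WW M) ⥤ D₀}
  [L₀.IsLocalization (CofCat.W (C := FlatCat (WW M)))] (R : Rp (Flat (WW M)) (LF L₀))

/-- the identity of `J K`, from the flat object -/
def idJ {K : St.Space} (h : St.FC K) : (flJ (M := M) h).obj ⟶ (J M).obj (St.toLC K) := 𝟙 _

open scoped Classical in
/-- the comparison of suspension spectra -/
noncomputable def ioOf (K : St.Space) :
    (suspOf L₀).obj K ⟶ (LF L₀).obj (R.Q.obj ((J M).obj (St.toLC K))) :=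
  if h : St.FC K then (eS L₀ h).hom ≫ R.toL (flJ h) (idJ h) else 0

theorem ioOf_eq {K : St.Space} (h : St.FC K) :
    ioOf R K = (eS L₀ h).hom ≫ R.toL (flJ h) (idJ h) := dif_pos h

theorem isIso_toL_id (A : FlatCat (WW M)) : IsIso (R.toL A (𝟙 A.obj)) :=
  R.isIso_toL A _ inferInstance

theorem isIso_toL_idJ {K : St.Space} (h : St.FC K) : IsIso (R.toL (flJ h) (idJ h)) :=
  isIso_toL_id R (flJ h)

theorem isIso_ioOf {K : St.Space} (h : St.FC K) : IsIso (ioOf R K) := by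
  have := isIso_toL_idJ R h
  rw [ioOf_eq R h]
  infer_instance

theorem ioOf_nat {K K' : St.Space} (a : St.Map K K') (h : St.FC K) (h' : St.FC K') :
    (suspOf L₀).map a ≫ ioOf R K' =
      ioOf R K ≫ (LF L₀).map (R.Q.map ((J M).map (St.toHom a))) := by
  rw [ioOf_eq R h, ioOf_eq R h', ← Category.assoc, map_eS L₀ h h', Category.assoc, Category.assoc,
    R.map_toL, R.toL_map]
  refine congrArg (fun k => (eS L₀ h).hom ≫ R.toL (flJ h) k) ?_
  exact (Category.comp_id _).trans (Category.id_comp _).symm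

theorem ioOf_mul {K K' : St.Space} (h : St.FC K) (h' : St.FC K') :
    (suspOf L₀).mul K K' ≫ ioOf R (K.prod K') = (ioOf R K ⊗ₘ ioOf R K') ≫ R.mu _ _ ≫
      (LF L₀).map (R.Q.map (μ (J M) (St.toLC K) (St.toLC K'))) := by
  rw [ioOf_eq R h, ioOf_eq R h', ioOf_eq R (St.fc_prod h h'), ← Category.assoc, mul_eS L₀ h h',
    ← tensorHom_comp_tensorHom, Category.assoc, Category.assoc, Category.assoc, R.toL_mu_assoc,
    R.map_toL, R.toL_map]
  refine congrArg (fun k => ((eS L₀ h).hom ⊗ₘ (eS L₀ h').hom) ≫ μ (LF L₀) (flJ h) (flJ h') ≫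
    R.toL (flJ h ⊗ flJ h') k) ?_
  change μ (J M) (St.toLC K) (St.toLC K') ≫ 𝟙 _ =
    (𝟙 ((J M).obj (St.toLC K)) ⊗ₘ 𝟙 ((J M).obj (St.toLC K'))) ≫ μ (J M) (St.toLC K) (St.toLC K')
  rw [id_tensorHom_id, Category.comp_id, Category.id_comp]

theorem unit_ioOf : (suspOf L₀).unit ≫ ioOf R St.Pn =
    ε (LF L₀) ≫ R.toL (𝟙_ (FlatCat (WW M))) (Z := (J M).obj (St.toLC St.Pn)) (ε (J M)) := by
  rw [ioOf_eq R St.fcPn, ← Category.assoc, unit_eS, Category.assoc, R.map_toL]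
  refine congrArg (fun k => ε (LF L₀) ≫ R.toL (𝟙_ (FlatCat (WW M))) k) ?_
  exact Category.comp_id _

variable (hq : ∀ X, WW M (R.q X))
  (hR : ∀ {X Y : M} (f : X ⟶ Y), WW M f → IsIso ((LF L₀).map (R.Q.map f)))

include hq hR in
theorem isIso_mu_of_flat (X Y : M) (hY : Flat (WW M) Y) : IsIso (R.mu X Y) := by
  refine R.isIso_mu X Y (hR _ ?_)
  rw [tensorHom_def']
  exact (WW M).comp_mem _ _ ((R.Q.obj X).property _ (hq Y))
    ((flatInput (WW M)).W_whiskerRight hY _ (hq X))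

include hq hR in
theorem dist_of_isCone {X Y C : M} (f : X ⟶ Y) (k : X ⊗ CI M ⟶ C) (i : Y ⟶ C)
    (d : C ⟶ X ⊗ S M)
    (e : (LF L₀).obj (R.Q.obj C) ⟶ (LF L₀).obj (R.Q.obj X) ⊗ (suspOf L₀).obj St.Rr)
    (h : IsCone f k i d)
    (he : e ≫ (LF L₀).obj (R.Q.obj X) ◁ ioOf R St.Rr ≫ R.mu X (S M) = (LF L₀).map (R.Q.map d)) :
    Triangle.mk ((LF L₀).map (R.Q.map f)) ((LF L₀).map (R.Q.map i))
      (e ≫ (LF L₀).obj (R.Q.obj X) ◁ (suspOf L₀).line ≫
        (TensorTriangulated.e ((LF L₀).obj (R.Q.obj X))).hom) ∈ distTriang (shOf L₀).C := by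
  obtain ⟨C', k', i', d', h'⟩ := IsCone.exists_isCone (R.Q.map f).hom
  let C₁ : FlatCat (WW M) :=
    ⟨C', flat_of_isCone (WW M) h'.po (R.Q.obj X).property (R.Q.obj Y).property⟩
  let i₁ : R.Q.obj Y ⟶ C₁ := ObjectProperty.homMk i'
  let d₁ : C₁ ⟶ R.Q.obj X ⊗ flJ St.fcRr := ObjectProperty.homMk d'
  have hD := dist_LF L₀ (R.Q.map f) i₁ d₁ (k := k') h'
  have w : StabInput.coneBase (R.Q.obj X).obj ≫ R.q X ▷ CI M ≫ k = (R.Q.map f).hom ≫ R.q Y ≫ i := by
    rw [StabInput.coneBase_naturality_assoc, h.po.w, ← Category.assoc, ← Category.assoc, R.nat]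
  let c : C₁.obj ⟶ C := h'.po.desc _ _ w
  have c1 : k' ≫ c = R.q X ▷ CI M ≫ k := h'.po.inl_desc _ _ _
  have c2 : i' ≫ c = R.q Y ≫ i := h'.po.inr_desc _ _ _
  have hc : WW M c := ((puppeInput M).five_cone (GG := GG M) h' h (R.q X) (R.q Y) c (R.nat f)
    c1 c2).1 (hq X) (hq Y)
  have c3 : d' ≫ R.q X ▷ S M = c ≫ d := by
    apply h'.po.hom_ext
    · rw [reassoc_of% h'.kq, reassoc_of% c1, h.kq, whisker_exchange]
    · rw [reassoc_of% h'.iq, reassoc_of% c2, h.iq, zero_comp, comp_zero]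
  have hc' : IsIso (R.toL C₁ c) := R.isIso_toL C₁ c (hR c hc)
  let u : (flJ (M := M) St.fcRr).obj ⟶ S M := 𝟙 _
  have h1 : IsIso (R.toL (flJ St.fcRr) u) := isIso_toL_id R (flJ St.fcRr)
  have h2 : IsIso (R.mu X (S M)) := isIso_mu_of_flat R hq hR X _ (flatInput (WW M)).flat_S
  have key : R.toL C₁ c ≫ e ≫ (LF L₀).obj (R.Q.obj X) ◁ (eS L₀ St.fcRr).hom =
      (LF L₀).map d₁ ≫ δ (LF L₀) (R.Q.obj X) (flJ St.fcRr) := by
    have he' : e ≫ (LF L₀).obj (R.Q.obj X) ◁ ((eS L₀ St.fcRr).hom ≫ R.toL (flJ St.fcRr) u) ≫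
        R.mu X (S M) = (LF L₀).map (R.Q.map d) := by
      rw [ioOf_eq R St.fcRr] at he
      exact he
    rw [MonoidalCategory.whiskerLeft_comp, Category.assoc] at he'
    rw [← cancel_mono ((LF L₀).obj (R.Q.obj X) ◁ R.toL (flJ St.fcRr) u ≫ R.mu X (S M)),
      Category.assoc, Category.assoc, he', R.whiskerLeft_toL_mu, Category.assoc,
      Functor.Monoidal.δ_μ_assoc, R.map_toL, R.toL_map, ← c3]
    refine congrArg (R.toL C₁) ?_
    change d' ≫ R.q X ▷ S M = d' ≫ (R.q X ⊗ₘ 𝟙 (S M))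
    rw [tensorHom_id]
  refine isomorphic_distinguished _ hD _ (Triangle.isoMk _ _ (Iso.refl _) (Iso.refl _)
    (asIso (R.toL C₁ c)).symm ?_ ?_ ?_)
  · exact (Category.comp_id _).trans (Category.id_comp _).symm
  · change (LF L₀).map (R.Q.map i) ≫ inv (R.toL C₁ c) = 𝟙 _ ≫ (LF L₀).map i₁
    rw [IsIso.comp_inv_eq, Category.id_comp, R.map_toL, R.map_eq_toL, ← c2]
    rfl
  · change (e ≫ (LF L₀).obj (R.Q.obj X) ◁ (suspOf L₀).line ≫
        (TensorTriangulated.e ((LF L₀).obj (R.Q.obj X))).hom) ≫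
          (shiftFunctor (shOf L₀).C (1 : ℤ)).map (𝟙 _) =
      inv (R.toL C₁ c) ≫ (LF L₀).map d₁ ≫ δ (LF L₀) (R.Q.obj X) (flJ St.fcRr) ≫
        (LF L₀).obj (R.Q.obj X) ◁ (lineF L₀).hom ≫
          (TensorTriangulated.e ((LF L₀).obj (R.Q.obj X))).hom
    rw [CategoryTheory.Functor.map_id, Category.comp_id, IsIso.eq_inv_comp, ← reassoc_of% key,
      line_eS, MonoidalCategory.whiskerLeft_comp, Category.assoc]

include hq hR in
/-- the generic comparison, from replacement data -/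
noncomputable def genOf (hL : (R.Q ⋙ LF L₀).IsLocalization (WW M)) :
    GenSH M (shOf L₀) (suspOf L₀) where
  L := R.Q ⋙ LF L₀
  loc := hL
  mu := R.mu
  io := ioOf R
  ex_flat X := ⟨_, R.q X, (R.Q.obj X).property, hq X⟩
  mu_iso := isIso_mu_of_flat R hq hR
  mu_nat f g := R.mu_nat f g
  mu_assoc := R.mu_assoc
  mu_comm := R.mu_comm
  mu_unit X := by
    rw [unit_ioOf]
    exact R.mu_unit X (Y := (J M).obj (St.toLC St.Pn)) (ε (J M))
  io_iso h := isIso_ioOf R h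
  flat_J h := (flJ (M := M) h).property
  io_nat a h h' := ioOf_nat R a h h'
  io_mul h h' := ioOf_mul R h h'
  cone f k i d e h he := dist_of_isCone R hq hR f k i d e h he

end

/-- **The generic comparison theorem.** -/
theorem exists_genSH (Q : M ⥤ M) (q : Q ⟶ 𝟭 M) (hQ : ∀ X, Flat (WW M) (Q.obj X))
    (hq : ∀ X, WW M (q.app X)) :
    ∃ (T : St.SHCat) (S : St.Susp T), Nonempty (GenSH M T S) := by
  obtain ⟨D₀, _, L₀, _⟩ := exists_loc M
  exact ⟨shOf L₀, suspOf L₀, ⟨genOf (rp Q q hQ hq L₀) (W_q Q q hQ hq L₀)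
    (isIso_rp_map Q q hQ hq L₀) (isLocalization_flat (WW M) Q hQ q hq (LF L₀))⟩⟩

end Vale.Agent.P251CM
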